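import Vale.Agent.P273.D14.H66.Getz

/-!
The sum over all splittings of a vertex into two vertices joined by two edges, or by an edge with
a loop at the new vertex, vanishes.
-/

namespace Vale.Agent.P273.D14.FS

open Sum MvPolynomial Finset
open scoped Nat Classical
noncomputable section

variable {V E : Type}

namespace Gz

/-- Add a loop at `w`. -/
def lpo (h : E × Bool → V) (w : V) : Option E × Bool → V := fun y => y.1.elim w fun e => h (e, y.2)

/-- The edges of the two graphs. -/
def qe (x x' : Bool) : Option (Option E) × Bool → (E ⊕ Bool) × Bool :=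
  fun y => y.1.elim (inr false, xor x' y.2) fun e => e.elim (inr true, xor x y.2) fun e => (inl e, y.2)

theorem qe_bij (x x' : Bool) : (qe x x' : Option (Option E) × Bool → (E ⊕ Bool) × Bool).Bijective := by
  constructor
  · rintro ⟨_ | _ | e, b⟩ ⟨_ | _ | e', b'⟩ h1 <;> simp_all [qe]
  · rintro ⟨e | b', b⟩
    · exact ⟨(some (some e), b), rfl⟩
    · cases b'
      · exact ⟨(none, xor x' b), by simp [qe]⟩
      · exact ⟨(some none, xor x b), by simp [qe]⟩

variable {h : E × Bool → V} {w : V} {S : Set (E × Bool)} {T : Set (Option E × Bool)}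

theorem f_tt (hS : ∀ y ∈ S, h y = w) (hT : ∀ e b, (some e, b) ∈ T ↔ (e, b) ∈ S)
    (h1 : (none, true) ∈ T) (h2 : (none, false) ∈ T) :
    f (split (lpo h w) w T) = f (lgf h w S) := by
  refine f_iso _ _ id (qe false true) Function.bijective_id (qe_bij _ _) ?_ ?_
  · rintro (_ | _ | e) <;> rfl
  · rintro ⟨_ | _ | e, b⟩
    · cases b <;> simp [qe, lgf, split]
    · cases b <;> simp [qe, lgf, split, lpo, h1, h2]
    · simp only [qe, lgf, split, lpo, Option.elim, Sum.elim_inl, id]
      by_cases h3 : (e, b) ∈ S
      · simp [h3, hS _ h3, hT]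
      · simp [h3, hT]

theorem f_tf (hS : ∀ y ∈ S, h y = w) (hT : ∀ e b, (some e, b) ∈ T ↔ (e, b) ∈ S)
    (h1 : (none, true) ∈ T) (h2 : (none, false) ∉ T) :
    f (split (lpo h w) w T) = f (dbf h w S) := by
  refine f_iso _ _ id (qe true true) Function.bijective_id (qe_bij _ _) ?_ ?_
  · rintro (_ | _ | e) <;> rfl
  · rintro ⟨_ | _ | e, b⟩
    · cases b <;> simp [qe, dbf, split]
    · cases b <;> simp [qe, dbf, split, lpo, h1, h2]
    · simp only [qe, dbf, split, lpo, Option.elim, Sum.elim_inl, id]
      by_cases h3 : (e, b) ∈ S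
      · simp [h3, hS _ h3, hT]
      · simp [h3, hT]

theorem f_ft (hS : ∀ y ∈ S, h y = w) (hT : ∀ e b, (some e, b) ∈ T ↔ (e, b) ∈ S)
    (h1 : (none, true) ∉ T) (h2 : (none, false) ∈ T) :
    f (split (lpo h w) w T) = f (dbf h w S) := by
  refine f_iso _ _ id (qe false true) Function.bijective_id (qe_bij _ _) ?_ ?_
  · rintro (_ | _ | e) <;> rfl
  · rintro ⟨_ | _ | e, b⟩
    · cases b <;> simp [qe, dbf, split]
    · cases b <;> simp [qe, dbf, split, lpo, h1, h2]
    · simp only [qe, dbf, split, lpo, Option.elim, Sum.elim_inl, id]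
      by_cases h3 : (e, b) ∈ S
      · simp [h3, hS _ h3, hT]
      · simp [h3, hT]

theorem f_ff (hS : ∀ y ∈ S, h y = w) (hT : ∀ e b, (some e, b) ∈ T ↔ (e, b) ∈ S)
    (h1 : (none, true) ∉ T) (h2 : (none, false) ∉ T) :
    f (split (lpo h w) w T) = f (lgf h w {y | h y = w ∧ y ∉ S}) := by
  refine f_iso _ _ (Equiv.swap none (some w)) (qe false false) (Equiv.bijective _) (qe_bij _ _)
    ?_ ?_
  · rintro (_ | _ | e) <;> rfl
  · rintro ⟨_ | _ | e, b⟩
    · cases b <;> simp [qe, lgf, split]
    · cases b <;> simp [qe, lgf, split, lpo, h1, h2]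
    · simp only [qe, lgf, split, lpo, Option.elim, Sum.elim_inl]
      by_cases h3 : (e, b) ∈ S
      · simp [h3, hS _ h3, hT]
      · by_cases h4 : h (e, b) = w
        · simp [h3, h4, hT]
        · simp only [Set.mem_ofPred_eq, h4, h3, false_and, if_false]
          rw [Equiv.swap_apply_of_ne_of_ne (by simp) (by simpa using h4)]

/-- The old half-edges at `w`. -/
def io (h : E × Bool → V) (w : V) : {y : E × Bool // h y = w} ↪ Option E × Bool :=
  ⟨fun y => (some y.1.1, y.1.2), fun y z hyz => by
    have : y.1 = z.1 := by simpa [Prod.ext_iff] using hyz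
    exact Subtype.ext this⟩

theorem mem_io {S : Finset {y : E × Bool // h y = w}} {e : E} {b : Bool} :
    (some e, b) ∈ S.map (io h w) ↔ (e, b) ∈ Subtype.val '' (S : Set {y : E × Bool // h y = w}) := by
  rw [mem_map, Set.mem_image]
  refine exists_congr fun y => and_congr Iff.rfl ?_
  change (some y.1.1, y.1.2) = (some e, b) ↔ _
  simp only [Prod.ext_iff, Option.some.injEq]

theorem notMem_io {S : Finset {y : E × Bool // h y = w}} {b : Bool} :
    (none, b) ∉ S.map (io h w) := by
  rw [mem_map]
  rintro ⟨y, -, hy⟩
  change (some y.1.1, y.1.2) = (none, b) at hy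
  simp at hy

end Gz

open Gz

/-- The splittings of a vertex with a loop. -/
theorem f_LD [Finite V] [Finite E] (h : E × Bool → V) (w : V) [Fintype {y : E × Bool // h y = w}] :
    ∑ S : Finset {y : E × Bool // h y = w},
      (f (lgf h w (Subtype.val '' (S : Set {y : E × Bool // h y = w}))) +
        f (dbf h w (Subtype.val '' (S : Set {y : E × Bool // h y = w})))) = 0 := by
  have := Fintype.ofFinite V
  have := Fintype.ofFinite E
  have h0 := f_star_finset (lpo h w) w
  have hF : (univ.filter fun y => lpo h w y = w) = insert (none, true) (insert (none, false)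
      ((univ : Finset {y : E × Bool // h y = w}).map (io h w))) := by
    ext ⟨_ | e, b⟩
    · rw [mem_filter]
      cases b <;> simp [lpo]
    · rw [mem_filter, mem_insert, mem_insert, mem_io]
      simp [lpo]
  have n1 : ((none, true) : Option E × Bool) ∉ insert (none, false)
      ((univ : Finset {y : E × Bool // h y = w}).map (io h w)) := by
    rw [mem_insert]
    exact not_or.2 ⟨by simp, notMem_io⟩
  rw [hF, sum_powerset_insert n1, sum_powerset_insert notMem_io, sum_powerset_insert notMem_io,
    ← sum_add_distrib, ← sum_add_distrib, ← sum_add_distrib] at h0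
  have h1 : ∀ F : Finset (Option E × Bool) → ℚ,
      ∑ S ∈ ((univ : Finset {y : E × Bool // h y = w}).map (io h w)).powerset, F S =
      ∑ S : Finset {y : E × Bool // h y = w}, F (S.map (io h w)) := fun F => by
    symm
    refine sum_bij (fun S _ => S.map (io h w)) (fun S _ => ?_)
      (fun S _ S' _ hS => map_injective (io h w) hS) (fun S hS => ?_) fun _ _ => rfl
    · exact mem_powerset.2 (map_subset_map.2 (subset_univ S))
    · obtain ⟨S', -, rfl⟩ := subset_map_iff.1 (mem_powerset.1 hS)
      exact ⟨S', mem_univ _, rfl⟩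
  rw [h1] at h0
  have hval : ∀ S : Finset {y : E × Bool // h y = w},
      ∀ y ∈ Subtype.val '' (S : Set {y : E × Bool // h y = w}), h y = w := by
    rintro S y ⟨z, -, rfl⟩
    exact z.2
  have h2 : ∀ S : Finset {y : E × Bool // h y = w},
      {y | h y = w ∧ y ∉ Subtype.val '' (S : Set {y : E × Bool // h y = w})} =
      Subtype.val '' ((Sᶜ : Finset {y : E × Bool // h y = w}) : Set {y : E × Bool // h y = w}) := by
    intro S
    ext y
    simp
    tauto
  have h3 : ∀ S : Finset {y : E × Bool // h y = w},
      f (split (lpo h w) w (S.map (io h w) : Finset (Option E × Bool))) =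
      f (lgf h w (Subtype.val '' ((Sᶜ : Finset {y : E × Bool // h y = w}) :
        Set {y : E × Bool // h y = w}))) := fun S => by
    rw [f_ff (hval S) (fun e b => mem_io) notMem_io notMem_io, h2]
  have h4 : ∀ S : Finset {y : E × Bool // h y = w},
      f (split (lpo h w) w (insert (none, false) (S.map (io h w)) : Finset (Option E × Bool))) =
      f (dbf h w (Subtype.val '' (S : Set {y : E × Bool // h y = w}))) := fun S =>
    f_ft (hval S) (fun e b => by simpa using mem_io) (by simpa using notMem_io) (by simp)
  have h5 : ∀ S : Finset {y : E × Bool // h y = w},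
      f (split (lpo h w) w (insert (none, true) (S.map (io h w)) : Finset (Option E × Bool))) =
      f (dbf h w (Subtype.val '' (S : Set {y : E × Bool // h y = w}))) := fun S =>
    f_tf (hval S) (fun e b => by simpa using mem_io) (by simp) (by simpa using notMem_io)
  have h6 : ∀ S : Finset {y : E × Bool // h y = w},
      f (split (lpo h w) w (insert (none, true) (insert (none, false) (S.map (io h w))) :
        Finset (Option E × Bool))) =
      f (lgf h w (Subtype.val '' (S : Set {y : E × Bool // h y = w}))) := fun S =>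
    f_tt (hval S) (fun e b => by simpa using mem_io) (by simp) (by simp)
  simp only [h3, h4, h5, h6, sum_add_distrib] at h0
  have h7 : ∑ S : Finset {y : E × Bool // h y = w}, f (lgf h w (Subtype.val ''
      ((Sᶜ : Finset {y : E × Bool // h y = w}) : Set {y : E × Bool // h y = w}))) =
      ∑ S : Finset {y : E × Bool // h y = w},
        f (lgf h w (Subtype.val '' (S : Set {y : E × Bool // h y = w}))) :=
    Fintype.sum_equiv (Equiv.ofBijective _ compl_bijective) _ _ fun _ => rfl
  rw [h7] at h0
  rw [sum_add_distrib]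
  linarith

end

end Vale.Agent.P273.D14.FS
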