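import Vale.Agent.P273.D14.H66.GzSum
import Vale.Agent.P273.D14.H789.GzGraph
import Vale.Agent.P273.D14.H743.FLI

/-!
The Getzler type identity for `f`.
-/

namespace Vale.Agent.P273.D14.FS

open Sum MvPolynomial Finset
open scoped Nat Classical
noncomputable section

variable {V E : Type}

/-- Split the vertex `w`: the half-edges in `S` go to the new vertex `none`, and two new edges join
`w` (side `true`) to `none` (side `false`). -/
def dbf (h : E × Bool → V) (w : V) (S : Set (E × Bool)) : (E ⊕ Bool) × Bool → Option V :=
  fun y => y.1.elim (fun e => if (e, y.2) ∈ S then none else some (h (e, y.2)))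
    fun _ => cond y.2 (some w) none

/-- Split the vertex `w`: the half-edges in `S` go to the new vertex `none`, the new edge
`inr true` is a loop at `none`, and the new edge `inr false` joins `w` (side `true`) to `none` (side
`false`). -/
def lgf (h : E × Bool → V) (w : V) (S : Set (E × Bool)) : (E ⊕ Bool) × Bool → Option V :=
  fun y => y.1.elim (fun e => if (e, y.2) ∈ S then none else some (h (e, y.2)))
    fun b => cond b none (cond y.2 (some w) none)

namespace Gz

/-- The counting function of a vertex as a sum over the half-edges. -/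
theorem cnt_sum [Fintype E] (h : E × Bool → V) (s : E → St) (v : V) :
    cnt h s v = ∑ y : E × Bool, if h y = v then Pi.single (loc s y) 1 else 0 := by
  ext q
  rw [cnt_eq, Finset.sum_apply]
  refine sum_congr rfl fun y _ => ?_
  by_cases h1 : h y = v
  · simp [h1, Pi.single_apply, eq_comm]
  · simp [h1]

/-- The counting function in a graph with two more edges. -/
theorem cnt_two [Fintype E] (g : (E ⊕ Bool) × Bool → Option V) (s : E → St) (t : Bool → St)
    (v : Option V) : cnt g (Sum.elim s t) v =
      (∑ y : E × Bool, if g (inl y.1, y.2) = v then Pi.single (loc s y) 1 else 0) +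
      ∑ b : Bool, ((if g (inr b, true) = v then en (t b) true else 0) +
        if g (inr b, false) = v then en (t b) false else 0) := by
  rw [cnt_sum, Fintype.sum_prod_type, Fintype.sum_sum_type, Fintype.sum_prod_type]
  congr 1
  · refine sum_congr rfl fun b _ => ?_
    rw [Fintype.sum_bool, Fintype.sum_bool]
    congr 1 <;> split_ifs <;> rfl
  · refine sum_congr rfl fun b _ => ?_
    rw [Fintype.sum_bool]
    congr 1 <;> split_ifs <;> rfl

variable [Fintype E] (h : E × Bool → V) (w : V) (S : Finset {y : E × Bool // h y = w})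
  (s : E → St)

theorem sum_in : (∑ y : E × Bool, if y ∈ (Subtype.val '' (S : Set {y : E × Bool // h y = w})) then
    (Pi.single (loc s y) 1 : St → ℕ) else 0) = cf (fun y => loc s y.1) S := by
  rw [← sum_filter, cf]
  have : (univ.filter fun y => y ∈ (Subtype.val '' (S : Set {y : E × Bool // h y = w}))) =
      S.map (Function.Embedding.subtype _) := by
    ext y
    simp
  rw [this, sum_map]
  rfl

theorem sum_out : (∑ y : E × Bool, if h y = w ∧
    y ∉ (Subtype.val '' (S : Set {y : E × Bool // h y = w})) then
    (Pi.single (loc s y) 1 : St → ℕ) else 0) = cf (fun y => loc s y.1) Sᶜ := by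
  rw [← sum_filter, cf]
  have : (univ.filter fun y => h y = w ∧
      y ∉ (Subtype.val '' (S : Set {y : E × Bool // h y = w}))) =
      Sᶜ.map (Function.Embedding.subtype _) := by
    ext y
    simp
    tauto
  rw [this, sum_map]
  rfl

theorem cnt_new (g : (E ⊕ Bool) × Bool → Option V)
    (hg : ∀ y : E × Bool, g (inl y.1, y.2) =
      if y ∈ (Subtype.val '' (S : Set {y : E × Bool // h y = w})) then none else some (h y))
    (t : Bool → St) : cnt g (Sum.elim s t) none = cf (fun y => loc s y.1) S +
      ∑ b : Bool, ((if g (inr b, true) = none then en (t b) true else 0) +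
        if g (inr b, false) = none then en (t b) false else 0) := by
  rw [cnt_two, ← sum_in]
  congr 1
  refine sum_congr rfl fun y _ => ?_
  rw [hg]
  split_ifs with h1 <;> simp_all

theorem cnt_old (g : (E ⊕ Bool) × Bool → Option V)
    (hg : ∀ y : E × Bool, g (inl y.1, y.2) =
      if y ∈ (Subtype.val '' (S : Set {y : E × Bool // h y = w})) then none else some (h y))
    (t : Bool → St) : cnt g (Sum.elim s t) (some w) = cf (fun y => loc s y.1) Sᶜ +
      ∑ b : Bool, ((if g (inr b, true) = some w then en (t b) true else 0) +
        if g (inr b, false) = some w then en (t b) false else 0) := by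
  rw [cnt_two, ← sum_out]
  congr 1
  refine sum_congr rfl fun y _ => ?_
  rw [hg]
  by_cases h1 : y ∈ (Subtype.val '' (S : Set {y : E × Bool // h y = w}))
  · rw [if_pos h1, if_neg (by simp), if_neg (by tauto)]
  · rw [if_neg h1]
    by_cases h2 : h y = w
    · rw [if_pos (by rw [h2]), if_pos ⟨h2, h1⟩]
    · rw [if_neg (by simpa using h2), if_neg (by tauto)]

theorem cnt_other (g : (E ⊕ Bool) × Bool → Option V)
    (hg : ∀ y : E × Bool, g (inl y.1, y.2) =
      if y ∈ (Subtype.val '' (S : Set {y : E × Bool // h y = w})) then none else some (h y))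
    (hb : ∀ b b' v, v ≠ w → g (inr b, b') ≠ some v)
    (t : Bool → St) {v : V} (hv : v ≠ w) : cnt g (Sum.elim s t) (some v) = cnt h s v := by
  rw [cnt_two, cnt_sum]
  have : ∑ b : Bool, ((if g (inr b, true) = some v then en (t b) true else 0) +
        if g (inr b, false) = some v then en (t b) false else 0) = 0 :=
    sum_eq_zero fun b _ => by rw [if_neg (hb _ _ _ hv), if_neg (hb _ _ _ hv), add_zero]
  rw [this, add_zero]
  refine sum_congr rfl fun y _ => ?_
  rw [hg]
  by_cases h1 : y ∈ (Subtype.val '' (S : Set {y : E × Bool // h y = w}))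
  · have h2 : h y = w := by
      obtain ⟨z, -, rfl⟩ := h1
      exact z.2
    rw [if_pos h1, if_neg (by simp), if_neg (by rw [h2]; exact hv.symm)]
  · rw [if_neg h1]
    simp

theorem sum_states (F : (E ⊕ Bool → St) → R) : ∑ s, F s = ∑ s : E → St, ∑ q : St, ∑ q' : St,
    F (Sum.elim s fun b => cond b q q') := by
  rw [← (Equiv.sumArrowEquivProdArrow E Bool St).symm.sum_comp, Fintype.sum_prod_type]
  refine sum_congr rfl fun s _ => ?_
  rw [← (Equiv.boolArrowEquivProd St).symm.sum_comp, Fintype.sum_prod_type, sum_comm]
  refine sum_congr rfl fun q _ => sum_congr rfl fun q' _ => ?_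
  congr 1
  ext x
  rcases x with x | x
  · rfl
  · cases x <;> rfl

variable [Fintype V]

/-- The weight of the vertices different from `w`. -/
def out (h : E × Bool → V) (w : V) (s : E → St) : R := ∏ v ∈ univ.erase w, W (cnt h s v)

theorem Z_dbf : Z (dbf h w (Subtype.val '' (S : Set {y : E × Bool // h y = w}))) =
    ∑ s : E → St, out h w s * DD (cf (fun y => loc s y.1) S) (cf (fun y => loc s y.1) Sᶜ) := by
  rw [Z, finsum_eq_sum_of_fintype, sum_states]
  refine sum_congr rfl fun s _ => ?_
  rw [DD, mul_sum]
  refine sum_congr rfl fun q _ => ?_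
  rw [mul_sum]
  refine sum_congr rfl fun q' _ => ?_
  have ho : ∀ v ∈ univ.erase w, W (cnt (dbf h w (Subtype.val '' (S : Set {y : E × Bool // h y = w})))
      (Sum.elim s fun b => cond b q q') (some v)) = W (cnt h s v) := fun v hv => by
    rw [cnt_other h w S s _ (fun y => rfl) (fun b b' v' hv' => by
      cases b' <;> simp [dbf, hv'.symm]) _ (ne_of_mem_erase hv)]
  rw [finprod_eq_prod_of_fintype, Fintype.prod_option, ← mul_prod_erase univ _ (mem_univ w),
    cnt_new h w S s _ (fun y => rfl), cnt_old h w S s _ (fun y => rfl), out, prod_congr rfl ho]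
  simp only [Fintype.sum_bool, dbf, Sum.elim_inr, cond_true, cond_false, if_true, reduceCtorEq,
    if_false, add_zero, zero_add, add_assoc]
  ring

theorem Z_lgf : Z (lgf h w (Subtype.val '' (S : Set {y : E × Bool // h y = w}))) =
    ∑ s : E → St, out h w s * LL (cf (fun y => loc s y.1) S) (cf (fun y => loc s y.1) Sᶜ) := by
  rw [Z, finsum_eq_sum_of_fintype, sum_states]
  refine sum_congr rfl fun s _ => ?_
  rw [LL, mul_sum]
  refine sum_congr rfl fun q _ => ?_
  rw [mul_sum]
  refine sum_congr rfl fun q' _ => ?_
  have ho : ∀ v ∈ univ.erase w, W (cnt (lgf h w (Subtype.val '' (S : Set {y : E × Bool // h y = w})))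
      (Sum.elim s fun b => cond b q q') (some v)) = W (cnt h s v) := fun v hv => by
    rw [cnt_other h w S s _ (fun y => rfl) (fun b b' v' hv' => by
      cases b <;> cases b' <;> simp [lgf, hv'.symm]) _ (ne_of_mem_erase hv)]
  rw [finprod_eq_prod_of_fintype, Fintype.prod_option, ← mul_prod_erase univ _ (mem_univ w),
    cnt_new h w S s _ (fun y => rfl), cnt_old h w S s _ (fun y => rfl), out, prod_congr rfl ho]
  simp only [Fintype.sum_bool, lgf, Sum.elim_inr, cond_true, cond_false, if_true, reduceCtorEq,
    if_false, add_zero, zero_add, add_assoc]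
  ring

omit [Fintype E] [Fintype V] in
theorem W_zero {m : St → ℕ} (h1 : m (inr true) ≠ 0) (h2 : 1 < ∑ q, m q) : W m = 0 := by
  unfold W
  rw [if_neg h1, if_neg]
  rintro ⟨h3, h4, h5⟩
  rw [Fintype.sum_sum_type, Fintype.sum_bool, h3, h4, sum_eq_zero fun c _ => h5 c] at h2
  omega

omit [Fintype E] [Fintype V] in
theorem sum_en (q : St) (b : Bool) : ∑ x, en q b x = 1 := by
  simp [en]

omit [Fintype E] [Fintype V] in
theorem sum_pos_of {m : St → ℕ} (h : m (inr true) ≠ 0) : 1 ≤ ∑ q, m q :=
  (Nat.one_le_iff_ne_zero.2 h).trans (single_le_sum (fun _ _ => Nat.zero_le _) (mem_univ _))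

omit [Fintype E] [Fintype V] in
theorem DD_LL_zero {m n : St → ℕ} (h : m (inr true) ≠ 0 ∨ n (inr true) ≠ 0) :
    DD m n = 0 ∧ LL m n = 0 := by
  have key : ∀ (m : St → ℕ) (q : St) (b : Bool), m (inr true) ≠ 0 → (m + en q b) (inr true) ≠ 0 :=
    fun m q b h => by
      rw [Pi.add_apply]
      omega
  rcases h with h | h
  · constructor
    · refine sum_eq_zero fun q _ => sum_eq_zero fun q' _ => ?_
      rw [W_zero (key _ _ _ (key _ _ _ h)), zero_mul]
      simp only [Pi.add_apply, sum_add_distrib, sum_en]
      have := sum_pos_of h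
      omega
    · refine sum_eq_zero fun q _ => sum_eq_zero fun q' _ => ?_
      rw [W_zero (key _ _ _ (key _ _ _ (key _ _ _ h))), zero_mul]
      simp only [Pi.add_apply, sum_add_distrib, sum_en]
      have := sum_pos_of h
      omega
  · constructor
    · refine sum_eq_zero fun q _ => sum_eq_zero fun q' _ => ?_
      rw [W_zero (m := n + _ + _) (key _ _ _ (key _ _ _ h)), mul_zero]
      simp only [Pi.add_apply, sum_add_distrib, sum_en]
      have := sum_pos_of h
      omega
    · refine sum_eq_zero fun q _ => sum_eq_zero fun q' _ => ?_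
      rw [W_zero (m := n + _) (key _ _ _ h), mul_zero]
      simp only [Pi.add_apply, sum_add_distrib, sum_en]
      have := sum_pos_of h
      omega

omit [Fintype V] in
theorem card_loc (q : St) : #{y : {y : E × Bool // h y = w} | loc s y.1 = q} = cnt h s w q := by
  rw [cnt, Nat.card_eq_fintype_card, Fintype.card_subtype, ← Finset.card_map
    (Function.Embedding.subtype _)]
  congr 1
  ext y
  simp [and_comm]

omit [Fintype E] [Fintype V] in
theorem La_two (x : R) : La (2 * x) = 2 * La x := by
  rw [two_mul, two_mul, map_add]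

end Gz

open Gz

/-- The Getzler type identity: `p`, `q` are two half-edges at the vertex `w` of a connected graph with
one loop, `S` is the set of the half-edges that go to the new vertex. -/
theorem f_Gz [Finite V] [Finite E] (h : E × Bool → V)
    (hcon : ∀ s : Set V, (∀ e, h (e, true) ∈ s ↔ h (e, false) ∈ s) → s = ∅ ∨ s = Set.univ)
    (hV : Nat.card V = 7) (hE : Nat.card E = 7) (w : V) [Fintype {y : E × Bool // h y = w}]
    [DecidableEq {y : E × Bool // h y = w}] (p q : {y : E × Bool // h y = w}) (hpq : p ≠ q) :
    ∑ S : Finset {y : E × Bool // h y = w}, (if p ∈ S then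
      (if q ∈ S then - f (dbf h w (Subtype.val '' (S : Set {y : E × Bool // h y = w})))
        else f (lgf h w (Subtype.val '' (S : Set {y : E × Bool // h y = w}))) +
          2 * f (dbf h w (Subtype.val '' (S : Set {y : E × Bool // h y = w}))))
      else (if q ∈ S then f (lgf h w (Subtype.val '' (S : Set {y : E × Bool // h y = w}))) +
          2 * f (dbf h w (Subtype.val '' (S : Set {y : E × Bool // h y = w})))
        else - f (lgf h w (Subtype.val '' (S : Set {y : E × Bool // h y = w}))) -
          f (dbf h w (Subtype.val '' (S : Set {y : E × Bool // h y = w}))))) = 0 := by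
  have := Fintype.ofFinite V
  have := Fintype.ofFinite E
  set l : (E → St) → {y : E × Bool // h y = w} → St := fun s y => loc s y.1 with hl
  have key : ∀ s : E → St, La (out h w s * Sm (l s) ({p, q}ᶜ : Finset _)
      (GG (l s p) (l s q))) = 0 := fun s => by
    by_cases h0 : ∃ v, v ≠ w ∧ W (cnt h s v) = 0
    · obtain ⟨v, hv, h0⟩ := h0
      rw [out, prod_eq_zero (mem_erase.2 ⟨hv, mem_univ v⟩) h0, zero_mul, map_zero]
    · push Not at h0
      by_cases h1 : cnt h s w (inr true) = 0
      · obtain ⟨c, hc, r, N, hN, hp⟩ := gz_graph h hcon (hE.trans hV.symm) w s h0 h1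
        have ho : out h w s = r • X c.castSucc ^ N := by
          rw [← hp, out]
          exact (finprod_cond_eq_prod_of_cond_iff _ fun {v} _ => by simp).symm
        have h2 : ∀ y, l s y ≠ inr true := fun y hy => by
          have : 0 < cnt h s w (inr true) := by
            rw [← card_loc]
            exact card_pos.2 ⟨y, by simpa using hy⟩
          omega
        rw [← card_loc, hV] at hN
        simp only [← card_loc] at hc
        have h3 : ∀ d, #{y | l s y = inl d} = if d = c then 2 else 0 := fun d => by
          rw [← hc d]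
          refine congrArg Finset.card (Finset.ext fun y => ?_)
          simp only [Finset.mem_filter, Finset.mem_univ, true_and]
          rfl
        have h4 : N + #{y | l s y = inr false} + 1 = 7 := by
          rw [← hN]
          refine congrArg (fun z => N + Finset.card z + 1) (Finset.ext fun y => ?_)
          simp only [Finset.mem_filter, Finset.mem_univ, true_and]
          rfl
        rw [ho, smul_mul_assoc, map_smul, loc_gz La_δ (l s) hpq c h3 h2 h4, smul_zero]
      · rw [← sum_GG (l s) hpq, sum_eq_zero, mul_zero, map_zero]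
        intro S _
        rw [← card_loc] at h1
        obtain ⟨y, hy⟩ := card_pos.1 (Nat.pos_of_ne_zero h1)
        have hy' : l s y = inr true := by simpa using hy
        have h2 : cf (l s) S (inr true) ≠ 0 ∨ cf (l s) Sᶜ (inr true) ≠ 0 := by
          by_cases hyS : y ∈ S
          · left
            rw [cf_apply]
            exact (card_pos.2 ⟨y, by simpa using ⟨hyS, hy'⟩⟩).ne'
          · right
            rw [cf_apply]
            exact (card_pos.2 ⟨y, by simpa using ⟨hyS, hy'⟩⟩).ne'
        rw [(DD_LL_zero h2).1, (DD_LL_zero h2).2]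
        simp
  have hD : ∀ S : Finset {y : E × Bool // h y = w},
      f (dbf h w (Subtype.val '' (S : Set {y : E × Bool // h y = w}))) =
      ∑ s, La (out h w s * DD (cf (l s) S) (cf (l s) Sᶜ)) := fun S => by
    rw [f, Z_dbf, map_sum]
    refine sum_congr rfl fun s _ => ?_
    refine congrArg (fun z => La (out h w s * DD (cf (l s) S) (cf (l s) z))) (Finset.ext fun y => ?_)
    simp only [Finset.mem_compl]
  have hL : ∀ S : Finset {y : E × Bool // h y = w},
      f (lgf h w (Subtype.val '' (S : Set {y : E × Bool // h y = w}))) =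
      ∑ s, La (out h w s * LL (cf (l s) S) (cf (l s) Sᶜ)) := fun S => by
    rw [f, Z_lgf, map_sum]
    refine sum_congr rfl fun s _ => ?_
    refine congrArg (fun z => La (out h w s * LL (cf (l s) S) (cf (l s) z))) (Finset.ext fun y => ?_)
    simp only [Finset.mem_compl]
  rw [← sum_eq_zero fun s (_ : s ∈ univ) => key s]
  simp only [← sum_GG (l _) hpq, mul_sum, map_sum]
  rw [sum_comm]
  refine sum_congr rfl fun S _ => ?_
  rw [hD, hL]
  split_ifs
  · rw [← sum_neg_distrib]
    exact sum_congr rfl fun s _ => by rw [mul_neg, map_neg]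
  · rw [mul_sum, ← sum_add_distrib]
    exact sum_congr rfl fun s _ => by rw [mul_add, map_add, mul_left_comm, La_two]
  · rw [mul_sum, ← sum_add_distrib]
    exact sum_congr rfl fun s _ => by rw [mul_add, map_add, mul_left_comm, La_two]
  · rw [← sum_neg_distrib, ← sum_sub_distrib]
    exact sum_congr rfl fun s _ => by rw [mul_sub, mul_neg, map_sub, map_neg]

end

end Vale.Agent.P273.D14.FS
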