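import Vale.Agent.P273.D14.H743.FDef

/-!
Local part of the Getzler type identity for `f`.
-/

namespace Vale.Agent.P273.D14.FS.Gz

open Sum MvPolynomial
open scoped Nat

noncomputable section

/-- The ends of an edge in state `q`. -/
def en (q : St) (b : Bool) : St → ℕ := Pi.single (Sum.elim inl (fun x => inr (x == b)) q) 1

/-- Two vertices joined by two edges, summed over the states of the two edges. -/
def DD (m n : St → ℕ) : R := ∑ q : St, ∑ q' : St,
  W (m + en q false + en q' false) * W (n + en q true + en q' true)

/-- Two vertices joined by an edge, with a loop at the first one, summed over the states. -/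
def LL (m n : St → ℕ) : R := ∑ q : St, ∑ q' : St,
  W (m + en q true + en q false + en q' false) * W (n + en q' true)

/-- A half-edge of state `big`. -/
abbrev bg : St → ℕ := Pi.single (inr false) 1

/-- A half-edge of colour `c`. -/
abbrev co (c : Fin 3) : St → ℕ := Pi.single (inl c) 1

theorem W_big (m : St → ℕ) : W (m + bg) = δ (W m) := by
  unfold W
  by_cases h : m (inr true) = 0
  · simp [h, Function.iterate_succ_apply']
  · simp only [Pi.add_apply, Pi.single_apply, reduceCtorEq, inr.injEq, Bool.true_eq_false,
      if_false, if_true, add_zero, h]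
    rw [if_neg (by simp), apply_ite (f := δ)]
    simp

theorem sum_St (F : St → R) : ∑ q, F q = F (inl 0) + F (inl 1) + F (inl 2) +
    (F (inr true) + F (inr false)) := by
  simp [Fintype.sum_sum_type, Fin.sum_univ_three]

theorem DD_big (m n : St → ℕ) : DD (m + bg) n + DD m (n + bg) = δ (DD m n) := by
  have h1 : ∀ m e : St → ℕ, m + bg + e = m + e + bg := fun m e => add_right_comm _ _ _
  simp only [DD, map_sum, ← Finset.sum_add_distrib]
  refine Finset.sum_congr rfl fun q _ => Finset.sum_congr rfl fun q' _ => ?_
  simp only [h1, W_big, Derivation.leibniz]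
  simp only [smul_eq_mul]
  ring

theorem LL_big (m n : St → ℕ) : LL (m + bg) n + LL m (n + bg) = δ (LL m n) := by
  have h1 : ∀ m e : St → ℕ, m + bg + e = m + e + bg := fun m e => add_right_comm _ _ _
  simp only [LL, map_sum, ← Finset.sum_add_distrib]
  refine Finset.sum_congr rfl fun q _ => Finset.sum_congr rfl fun q' _ => ?_
  simp only [h1, W_big, Derivation.leibniz]
  simp only [smul_eq_mul]
  ring

/-- The four terms of the Getzler type relation for two half-edges of states `P`, `Q`. -/
def GG (P Q : St) (m n : St → ℕ) : R :=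
  - DD (m + Pi.single P 1 + Pi.single Q 1) n
  + (LL (m + Pi.single P 1) (n + Pi.single Q 1) + 2 * DD (m + Pi.single P 1) (n + Pi.single Q 1))
  + (LL (m + Pi.single Q 1) (n + Pi.single P 1) + 2 * DD (m + Pi.single Q 1) (n + Pi.single P 1))
  + (- LL m (n + Pi.single P 1 + Pi.single Q 1) - DD m (n + Pi.single P 1 + Pi.single Q 1))

theorem GG_big (P Q : St) (m n : St → ℕ) :
    GG P Q (m + bg) n + GG P Q m (n + bg) = δ (GG P Q m n) := by
  have h1 : ∀ m e : St → ℕ, m + bg + e = m + e + bg := fun m e => add_right_comm _ _ _
  have h3 : ∀ (m n : St → ℕ), DD (m + bg) n = δ (DD m n) - DD m (n + bg) := fun m n => by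
    rw [← DD_big]; ring
  have h4 : ∀ (m n : St → ℕ), LL (m + bg) n = δ (LL m n) - LL m (n + bg) := fun m n => by
    rw [← LL_big]; ring
  have h5 : δ (2 : R) = 0 := by
    exact_mod_cast δ.map_natCast 2
  simp only [GG, h1, h3, h4, map_add, map_sub, map_neg, Derivation.leibniz, smul_eq_mul, h5]
  ring

end

end Vale.Agent.P273.D14.FS.Gz
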