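import Vale.Agent.P273.D14.H66.GzLoc

/-!
The three numerical identities behind the Getzler type identity.
-/

namespace Vale.Agent.P273.D14.FS.Gz

open Sum MvPolynomial
open scoped Nat
noncomputable section

/-- The count function with given values. -/
def N (l b i j k : ℕ) : St → ℕ := Sum.elim ![i, j, k] (fun x => cond x l b)

theorem N_add (l b i j k l' b' i' j' k' : ℕ) :
    N l b i j k + N l' b' i' j' k' = N (l + l') (b + b') (i + i') (j + j') (k + k') := by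
  ext q
  rcases q with q | q
  · fin_cases q <;> rfl
  · cases q <;> rfl

theorem W_N (l b i j k : ℕ) : W (N l b i j k) = if l = 0 then δ^[b] (W0 i j k) else
    if l = 1 ∧ b = 0 ∧ i = 0 ∧ j = 0 ∧ k = 0 then 1 else 0 := by
  simp [W, N, Fin.forall_fin_succ]

theorem N_zero : (0 : St → ℕ) = N 0 0 0 0 0 := by
  ext q
  rcases q with q | q
  · fin_cases q <;> rfl
  · cases q <;> rfl

theorem single_0 : (Pi.single (inl 0) 1 : St → ℕ) = N 0 0 1 0 0 := by
  ext q
  rcases q with q | q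
  · fin_cases q <;> simp [N]
  · cases q <;> simp [N]

theorem single_1 : (Pi.single (inl 1) 1 : St → ℕ) = N 0 0 0 1 0 := by
  ext q
  rcases q with q | q
  · fin_cases q <;> simp [N]
  · cases q <;> simp [N]

theorem single_2 : (Pi.single (inl 2) 1 : St → ℕ) = N 0 0 0 0 1 := by
  ext q
  rcases q with q | q
  · fin_cases q <;> simp [N]
  · cases q <;> simp [N]

theorem single_t : (Pi.single (inr true) 1 : St → ℕ) = N 1 0 0 0 0 := by
  ext q
  rcases q with q | q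
  · fin_cases q <;> simp [N]
  · cases q <;> simp [N]

theorem single_f : (Pi.single (inr false) 1 : St → ℕ) = N 0 1 0 0 0 := by
  ext q
  rcases q with q | q
  · fin_cases q <;> simp [N]
  · cases q <;> simp [N]

theorem δX0 : δ (X 0) = - X 0 ^ 2 := by simp [δ]

theorem δX1 : δ (X 1) = - X 1 ^ 2 := by simp [δ]

theorem δX2 : δ (X 2) = - X 2 ^ 2 := by simp [δ]

theorem δX3 : δ (X 3) = 0 := by simp [δ]

theorem δ2 : δ (2 : R) = 0 := by exact_mod_cast δ.map_natCast 2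

theorem La_mo (a b c d : ℕ) : La (X 0 ^ a * X 1 ^ b * X 2 ^ c * X 3 ^ d) =
    if d = 2 then th1 a b c else 0 := by
  have h : (X 0 ^ a * X 1 ^ b * X 2 ^ c * X 3 ^ d : R) = monomial
      (Finsupp.single 0 a + Finsupp.single 1 b + Finsupp.single 2 c + Finsupp.single 3 d) 1 := by
    simp [monomial_eq, Finsupp.prod_fintype, Fin.prod_univ_four, Finsupp.single_apply]
  rw [h, La_monomial]
  simp

theorem Q1_0 : La (X 0 ^ 6 * GG (inl 0) (inl 0) 0 0) = 0 := by
  have h : X 0 ^ 6 * GG (inl 0) (inl 0) 0 0 =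
      (-4 : ℚ) • (X 0 ^ 8 * X 1 ^ 1 * X 2 ^ 3 * X 3 ^ 2) +
      (8 : ℚ) • (X 0 ^ 8 * X 1 ^ 2 * X 2 ^ 2 * X 3 ^ 2) +
      (-4 : ℚ) • (X 0 ^ 8 * X 1 ^ 3 * X 2 ^ 1 * X 3 ^ 2) +
      (4 : ℚ) • (X 0 ^ 9 * X 1 ^ 1 * X 2 ^ 2 * X 3 ^ 2) +
      (4 : ℚ) • (X 0 ^ 9 * X 1 ^ 2 * X 2 ^ 1 * X 3 ^ 2) := by
    simp only [GG, DD, LL, sum_St, en, Sum.elim_inl, Sum.elim_inr, beq_self_eq_true, BEq.rfl,
      Bool.not_true, Bool.not_false, Bool.true_beq, Bool.false_beq,
      single_0, single_1, single_2, single_t, single_f, N_zero, N_add, W_N, Nat.reduceAdd,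
      add_zero, zero_add, reduceIte, Nat.reduceEqDiff, W0, one_ne_zero, zero_ne_one,
      OfNat.ofNat_ne_zero, and_false, false_and, mul_zero, zero_mul, if_false]
    simp only [Function.iterate_succ, Function.comp_apply, Function.iterate_zero, id, map_zero,
      Derivation.leibniz, Derivation.leibniz_pow, δX0, δX1, δX2, δX3, δ2, Derivation.map_natCast,
      smul_eq_mul, nsmul_eq_mul, map_neg, map_add, smul_zero, mul_zero, zero_mul, add_zero,
      zero_add, MvPolynomial.smul_eq_C_mul, map_ofNat, C_neg, map_one]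
    push_cast
    ring
  rw [h]
  simp only [map_add, map_smul, La_mo]
  norm_num [th1, th3, cM, tau, Finset.sum_range_succ, Nat.choose, Nat.factorial]

theorem Q2_0 : La (X 0 ^ 5 * (GG (inl 0) (inr false) (Pi.single (inl 0) 1) 0 +
    GG (inl 0) (inr false) 0 (Pi.single (inl 0) 1))) = 0 := by
  have h : X 0 ^ 5 * (GG (inl 0) (inr false) (Pi.single (inl 0) 1) 0 +
      GG (inl 0) (inr false) 0 (Pi.single (inl 0) 1)) =
      (4 : ℚ) • (X 0 ^ 8 * X 1 ^ 1 * X 2 ^ 3 * X 3 ^ 2) +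
      (-8 : ℚ) • (X 0 ^ 8 * X 1 ^ 2 * X 2 ^ 2 * X 3 ^ 2) +
      (4 : ℚ) • (X 0 ^ 8 * X 1 ^ 3 * X 2 ^ 1 * X 3 ^ 2) +
      (-4 : ℚ) • (X 0 ^ 9 * X 1 ^ 1 * X 2 ^ 2 * X 3 ^ 2) +
      (-4 : ℚ) • (X 0 ^ 9 * X 1 ^ 2 * X 2 ^ 1 * X 3 ^ 2) := by
    simp only [GG, DD, LL, sum_St, en, Sum.elim_inl, Sum.elim_inr, beq_self_eq_true, BEq.rfl,
      Bool.not_true, Bool.not_false, Bool.true_beq, Bool.false_beq,
      single_0, single_1, single_2, single_t, single_f, N_zero, N_add, W_N, Nat.reduceAdd,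
      add_zero, zero_add, reduceIte, Nat.reduceEqDiff, W0, one_ne_zero, zero_ne_one,
      OfNat.ofNat_ne_zero, and_false, false_and, mul_zero, zero_mul, if_false]
    simp only [Function.iterate_succ, Function.comp_apply, Function.iterate_zero, id, map_zero,
      Derivation.leibniz, Derivation.leibniz_pow, δX0, δX1, δX2, δX3, δ2, Derivation.map_natCast,
      smul_eq_mul, nsmul_eq_mul, map_neg, map_add, smul_zero, mul_zero, zero_mul, add_zero,
      zero_add, MvPolynomial.smul_eq_C_mul, map_ofNat, C_neg, map_one]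
    push_cast
    ring
  rw [h]
  simp only [map_add, map_smul, La_mo]
  norm_num [th1, th3, cM, tau, Finset.sum_range_succ, Nat.choose, Nat.factorial]

theorem Q3_0 : La (X 0 ^ 4 * (GG (inr false) (inr false) ((Pi.single (inl 0) 1) + (Pi.single (inl 0) 1)) 0 +
    2 * GG (inr false) (inr false) (Pi.single (inl 0) 1) (Pi.single (inl 0) 1) +
    GG (inr false) (inr false) 0 ((Pi.single (inl 0) 1) + (Pi.single (inl 0) 1)))) = 0 := by
  have h : X 0 ^ 4 * (GG (inr false) (inr false) ((Pi.single (inl 0) 1) + (Pi.single (inl 0) 1)) 0 +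
      2 * GG (inr false) (inr false) (Pi.single (inl 0) 1) (Pi.single (inl 0) 1) +
      GG (inr false) (inr false) 0 ((Pi.single (inl 0) 1) + (Pi.single (inl 0) 1))) =
      (-8 : ℚ) • (X 0 ^ 8 * X 1 ^ 1 * X 2 ^ 3 * X 3 ^ 2) +
      (16 : ℚ) • (X 0 ^ 8 * X 1 ^ 2 * X 2 ^ 2 * X 3 ^ 2) +
      (-8 : ℚ) • (X 0 ^ 8 * X 1 ^ 3 * X 2 ^ 1 * X 3 ^ 2) +
      (8 : ℚ) • (X 0 ^ 9 * X 1 ^ 1 * X 2 ^ 2 * X 3 ^ 2) +
      (8 : ℚ) • (X 0 ^ 9 * X 1 ^ 2 * X 2 ^ 1 * X 3 ^ 2) := by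
    simp only [GG, DD, LL, sum_St, en, Sum.elim_inl, Sum.elim_inr, beq_self_eq_true, BEq.rfl,
      Bool.not_true, Bool.not_false, Bool.true_beq, Bool.false_beq,
      single_0, single_1, single_2, single_t, single_f, N_zero, N_add, W_N, Nat.reduceAdd,
      add_zero, zero_add, reduceIte, Nat.reduceEqDiff, W0, one_ne_zero, zero_ne_one,
      OfNat.ofNat_ne_zero, and_false, false_and, mul_zero, zero_mul, if_false]
    simp only [Function.iterate_succ, Function.comp_apply, Function.iterate_zero, id, map_zero,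
      Derivation.leibniz, Derivation.leibniz_pow, δX0, δX1, δX2, δX3, δ2, Derivation.map_natCast,
      smul_eq_mul, nsmul_eq_mul, map_neg, map_add, smul_zero, mul_zero, zero_mul, add_zero,
      zero_add, MvPolynomial.smul_eq_C_mul, map_ofNat, C_neg, map_one]
    push_cast
    ring
  rw [h]
  simp only [map_add, map_smul, La_mo]
  norm_num [th1, th3, cM, tau, Finset.sum_range_succ, Nat.choose, Nat.factorial]

theorem Q1_1 : La (X 1 ^ 6 * GG (inl 1) (inl 1) 0 0) = 0 := by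
  have h : X 1 ^ 6 * GG (inl 1) (inl 1) 0 0 =
      (-4 : ℚ) • (X 0 ^ 1 * X 1 ^ 8 * X 2 ^ 3 * X 3 ^ 2) +
      (4 : ℚ) • (X 0 ^ 1 * X 1 ^ 9 * X 2 ^ 2 * X 3 ^ 2) +
      (8 : ℚ) • (X 0 ^ 2 * X 1 ^ 8 * X 2 ^ 2 * X 3 ^ 2) +
      (4 : ℚ) • (X 0 ^ 2 * X 1 ^ 9 * X 2 ^ 1 * X 3 ^ 2) +
      (-4 : ℚ) • (X 0 ^ 3 * X 1 ^ 8 * X 2 ^ 1 * X 3 ^ 2) := by
    simp only [GG, DD, LL, sum_St, en, Sum.elim_inl, Sum.elim_inr, beq_self_eq_true, BEq.rfl,
      Bool.not_true, Bool.not_false, Bool.true_beq, Bool.false_beq,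
      single_0, single_1, single_2, single_t, single_f, N_zero, N_add, W_N, Nat.reduceAdd,
      add_zero, zero_add, reduceIte, Nat.reduceEqDiff, W0, one_ne_zero, zero_ne_one,
      OfNat.ofNat_ne_zero, and_false, false_and, mul_zero, zero_mul, if_false]
    simp only [Function.iterate_succ, Function.comp_apply, Function.iterate_zero, id, map_zero,
      Derivation.leibniz, Derivation.leibniz_pow, δX0, δX1, δX2, δX3, δ2, Derivation.map_natCast,
      smul_eq_mul, nsmul_eq_mul, map_neg, map_add, smul_zero, mul_zero, zero_mul, add_zero,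
      zero_add, MvPolynomial.smul_eq_C_mul, map_ofNat, C_neg, map_one]
    push_cast
    ring
  rw [h]
  simp only [map_add, map_smul, La_mo]
  norm_num [th1, th3, cM, tau, Finset.sum_range_succ, Nat.choose, Nat.factorial]

theorem Q2_1 : La (X 1 ^ 5 * (GG (inl 1) (inr false) (Pi.single (inl 1) 1) 0 +
    GG (inl 1) (inr false) 0 (Pi.single (inl 1) 1))) = 0 := by
  have h : X 1 ^ 5 * (GG (inl 1) (inr false) (Pi.single (inl 1) 1) 0 +
      GG (inl 1) (inr false) 0 (Pi.single (inl 1) 1)) =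
      (4 : ℚ) • (X 0 ^ 1 * X 1 ^ 8 * X 2 ^ 3 * X 3 ^ 2) +
      (-4 : ℚ) • (X 0 ^ 1 * X 1 ^ 9 * X 2 ^ 2 * X 3 ^ 2) +
      (-8 : ℚ) • (X 0 ^ 2 * X 1 ^ 8 * X 2 ^ 2 * X 3 ^ 2) +
      (-4 : ℚ) • (X 0 ^ 2 * X 1 ^ 9 * X 2 ^ 1 * X 3 ^ 2) +
      (4 : ℚ) • (X 0 ^ 3 * X 1 ^ 8 * X 2 ^ 1 * X 3 ^ 2) := by
    simp only [GG, DD, LL, sum_St, en, Sum.elim_inl, Sum.elim_inr, beq_self_eq_true, BEq.rfl,
      Bool.not_true, Bool.not_false, Bool.true_beq, Bool.false_beq,
      single_0, single_1, single_2, single_t, single_f, N_zero, N_add, W_N, Nat.reduceAdd,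
      add_zero, zero_add, reduceIte, Nat.reduceEqDiff, W0, one_ne_zero, zero_ne_one,
      OfNat.ofNat_ne_zero, and_false, false_and, mul_zero, zero_mul, if_false]
    simp only [Function.iterate_succ, Function.comp_apply, Function.iterate_zero, id, map_zero,
      Derivation.leibniz, Derivation.leibniz_pow, δX0, δX1, δX2, δX3, δ2, Derivation.map_natCast,
      smul_eq_mul, nsmul_eq_mul, map_neg, map_add, smul_zero, mul_zero, zero_mul, add_zero,
      zero_add, MvPolynomial.smul_eq_C_mul, map_ofNat, C_neg, map_one]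
    push_cast
    ring
  rw [h]
  simp only [map_add, map_smul, La_mo]
  norm_num [th1, th3, cM, tau, Finset.sum_range_succ, Nat.choose, Nat.factorial]

theorem Q3_1 : La (X 1 ^ 4 * (GG (inr false) (inr false) ((Pi.single (inl 1) 1) + (Pi.single (inl 1) 1)) 0 +
    2 * GG (inr false) (inr false) (Pi.single (inl 1) 1) (Pi.single (inl 1) 1) +
    GG (inr false) (inr false) 0 ((Pi.single (inl 1) 1) + (Pi.single (inl 1) 1)))) = 0 := by
  have h : X 1 ^ 4 * (GG (inr false) (inr false) ((Pi.single (inl 1) 1) + (Pi.single (inl 1) 1)) 0 +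
      2 * GG (inr false) (inr false) (Pi.single (inl 1) 1) (Pi.single (inl 1) 1) +
      GG (inr false) (inr false) 0 ((Pi.single (inl 1) 1) + (Pi.single (inl 1) 1))) =
      (-8 : ℚ) • (X 0 ^ 1 * X 1 ^ 8 * X 2 ^ 3 * X 3 ^ 2) +
      (8 : ℚ) • (X 0 ^ 1 * X 1 ^ 9 * X 2 ^ 2 * X 3 ^ 2) +
      (16 : ℚ) • (X 0 ^ 2 * X 1 ^ 8 * X 2 ^ 2 * X 3 ^ 2) +
      (8 : ℚ) • (X 0 ^ 2 * X 1 ^ 9 * X 2 ^ 1 * X 3 ^ 2) +
      (-8 : ℚ) • (X 0 ^ 3 * X 1 ^ 8 * X 2 ^ 1 * X 3 ^ 2) := by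
    simp only [GG, DD, LL, sum_St, en, Sum.elim_inl, Sum.elim_inr, beq_self_eq_true, BEq.rfl,
      Bool.not_true, Bool.not_false, Bool.true_beq, Bool.false_beq,
      single_0, single_1, single_2, single_t, single_f, N_zero, N_add, W_N, Nat.reduceAdd,
      add_zero, zero_add, reduceIte, Nat.reduceEqDiff, W0, one_ne_zero, zero_ne_one,
      OfNat.ofNat_ne_zero, and_false, false_and, mul_zero, zero_mul, if_false]
    simp only [Function.iterate_succ, Function.comp_apply, Function.iterate_zero, id, map_zero,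
      Derivation.leibniz, Derivation.leibniz_pow, δX0, δX1, δX2, δX3, δ2, Derivation.map_natCast,
      smul_eq_mul, nsmul_eq_mul, map_neg, map_add, smul_zero, mul_zero, zero_mul, add_zero,
      zero_add, MvPolynomial.smul_eq_C_mul, map_ofNat, C_neg, map_one]
    push_cast
    ring
  rw [h]
  simp only [map_add, map_smul, La_mo]
  norm_num [th1, th3, cM, tau, Finset.sum_range_succ, Nat.choose, Nat.factorial]

theorem Q1_2 : La (X 2 ^ 6 * GG (inl 2) (inl 2) 0 0) = 0 := by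
  have h : X 2 ^ 6 * GG (inl 2) (inl 2) 0 0 =
      (4 : ℚ) • (X 0 ^ 1 * X 1 ^ 2 * X 2 ^ 9 * X 3 ^ 2) +
      (-4 : ℚ) • (X 0 ^ 1 * X 1 ^ 3 * X 2 ^ 8 * X 3 ^ 2) +
      (4 : ℚ) • (X 0 ^ 2 * X 1 ^ 1 * X 2 ^ 9 * X 3 ^ 2) +
      (8 : ℚ) • (X 0 ^ 2 * X 1 ^ 2 * X 2 ^ 8 * X 3 ^ 2) +
      (-4 : ℚ) • (X 0 ^ 3 * X 1 ^ 1 * X 2 ^ 8 * X 3 ^ 2) := by
    simp only [GG, DD, LL, sum_St, en, Sum.elim_inl, Sum.elim_inr, beq_self_eq_true, BEq.rfl,
      Bool.not_true, Bool.not_false, Bool.true_beq, Bool.false_beq,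
      single_0, single_1, single_2, single_t, single_f, N_zero, N_add, W_N, Nat.reduceAdd,
      add_zero, zero_add, reduceIte, Nat.reduceEqDiff, W0, one_ne_zero, zero_ne_one,
      OfNat.ofNat_ne_zero, and_false, false_and, mul_zero, zero_mul, if_false]
    simp only [Function.iterate_succ, Function.comp_apply, Function.iterate_zero, id, map_zero,
      Derivation.leibniz, Derivation.leibniz_pow, δX0, δX1, δX2, δX3, δ2, Derivation.map_natCast,
      smul_eq_mul, nsmul_eq_mul, map_neg, map_add, smul_zero, mul_zero, zero_mul, add_zero,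
      zero_add, MvPolynomial.smul_eq_C_mul, map_ofNat, C_neg, map_one]
    push_cast
    ring
  rw [h]
  simp only [map_add, map_smul, La_mo]
  norm_num [th1, th3, cM, tau, Finset.sum_range_succ, Nat.choose, Nat.factorial]

theorem Q2_2 : La (X 2 ^ 5 * (GG (inl 2) (inr false) (Pi.single (inl 2) 1) 0 +
    GG (inl 2) (inr false) 0 (Pi.single (inl 2) 1))) = 0 := by
  have h : X 2 ^ 5 * (GG (inl 2) (inr false) (Pi.single (inl 2) 1) 0 +
      GG (inl 2) (inr false) 0 (Pi.single (inl 2) 1)) =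
      (-4 : ℚ) • (X 0 ^ 1 * X 1 ^ 2 * X 2 ^ 9 * X 3 ^ 2) +
      (4 : ℚ) • (X 0 ^ 1 * X 1 ^ 3 * X 2 ^ 8 * X 3 ^ 2) +
      (-4 : ℚ) • (X 0 ^ 2 * X 1 ^ 1 * X 2 ^ 9 * X 3 ^ 2) +
      (-8 : ℚ) • (X 0 ^ 2 * X 1 ^ 2 * X 2 ^ 8 * X 3 ^ 2) +
      (4 : ℚ) • (X 0 ^ 3 * X 1 ^ 1 * X 2 ^ 8 * X 3 ^ 2) := by
    simp only [GG, DD, LL, sum_St, en, Sum.elim_inl, Sum.elim_inr, beq_self_eq_true, BEq.rfl,
      Bool.not_true, Bool.not_false, Bool.true_beq, Bool.false_beq,
      single_0, single_1, single_2, single_t, single_f, N_zero, N_add, W_N, Nat.reduceAdd,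
      add_zero, zero_add, reduceIte, Nat.reduceEqDiff, W0, one_ne_zero, zero_ne_one,
      OfNat.ofNat_ne_zero, and_false, false_and, mul_zero, zero_mul, if_false]
    simp only [Function.iterate_succ, Function.comp_apply, Function.iterate_zero, id, map_zero,
      Derivation.leibniz, Derivation.leibniz_pow, δX0, δX1, δX2, δX3, δ2, Derivation.map_natCast,
      smul_eq_mul, nsmul_eq_mul, map_neg, map_add, smul_zero, mul_zero, zero_mul, add_zero,
      zero_add, MvPolynomial.smul_eq_C_mul, map_ofNat, C_neg, map_one]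
    push_cast
    ring
  rw [h]
  simp only [map_add, map_smul, La_mo]
  norm_num [th1, th3, cM, tau, Finset.sum_range_succ, Nat.choose, Nat.factorial]

theorem Q3_2 : La (X 2 ^ 4 * (GG (inr false) (inr false) ((Pi.single (inl 2) 1) + (Pi.single (inl 2) 1)) 0 +
    2 * GG (inr false) (inr false) (Pi.single (inl 2) 1) (Pi.single (inl 2) 1) +
    GG (inr false) (inr false) 0 ((Pi.single (inl 2) 1) + (Pi.single (inl 2) 1)))) = 0 := by
  have h : X 2 ^ 4 * (GG (inr false) (inr false) ((Pi.single (inl 2) 1) + (Pi.single (inl 2) 1)) 0 +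
      2 * GG (inr false) (inr false) (Pi.single (inl 2) 1) (Pi.single (inl 2) 1) +
      GG (inr false) (inr false) 0 ((Pi.single (inl 2) 1) + (Pi.single (inl 2) 1))) =
      (8 : ℚ) • (X 0 ^ 1 * X 1 ^ 2 * X 2 ^ 9 * X 3 ^ 2) +
      (-8 : ℚ) • (X 0 ^ 1 * X 1 ^ 3 * X 2 ^ 8 * X 3 ^ 2) +
      (8 : ℚ) • (X 0 ^ 2 * X 1 ^ 1 * X 2 ^ 9 * X 3 ^ 2) +
      (16 : ℚ) • (X 0 ^ 2 * X 1 ^ 2 * X 2 ^ 8 * X 3 ^ 2) +
      (-8 : ℚ) • (X 0 ^ 3 * X 1 ^ 1 * X 2 ^ 8 * X 3 ^ 2) := by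
    simp only [GG, DD, LL, sum_St, en, Sum.elim_inl, Sum.elim_inr, beq_self_eq_true, BEq.rfl,
      Bool.not_true, Bool.not_false, Bool.true_beq, Bool.false_beq,
      single_0, single_1, single_2, single_t, single_f, N_zero, N_add, W_N, Nat.reduceAdd,
      add_zero, zero_add, reduceIte, Nat.reduceEqDiff, W0, one_ne_zero, zero_ne_one,
      OfNat.ofNat_ne_zero, and_false, false_and, mul_zero, zero_mul, if_false]
    simp only [Function.iterate_succ, Function.comp_apply, Function.iterate_zero, id, map_zero,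
      Derivation.leibniz, Derivation.leibniz_pow, δX0, δX1, δX2, δX3, δ2, Derivation.map_natCast,
      smul_eq_mul, nsmul_eq_mul, map_neg, map_add, smul_zero, mul_zero, zero_mul, add_zero,
      zero_add, MvPolynomial.smul_eq_C_mul, map_ofNat, C_neg, map_one]
    push_cast
    ring
  rw [h]
  simp only [map_add, map_smul, La_mo]
  norm_num [th1, th3, cM, tau, Finset.sum_range_succ, Nat.choose, Nat.factorial]

theorem Q1 (c : Fin 3) : La (X c.castSucc ^ 6 * GG (inl c) (inl c) 0 0) = 0 := by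
  fin_cases c
  exacts [Q1_0, Q1_1, Q1_2]

theorem Q2 (c : Fin 3) : La (X c.castSucc ^ 5 * (GG (inl c) (inr false) (Pi.single (inl c) 1) 0 +
    GG (inl c) (inr false) 0 (Pi.single (inl c) 1))) = 0 := by
  fin_cases c
  exacts [Q2_0, Q2_1, Q2_2]

theorem Q3 (c : Fin 3) : La (X c.castSucc ^ 4 *
    (GG (inr false) (inr false) (Pi.single (inl c) 1 + Pi.single (inl c) 1) 0 +
    2 * GG (inr false) (inr false) (Pi.single (inl c) 1) (Pi.single (inl c) 1) +
    GG (inr false) (inr false) 0 (Pi.single (inl c) 1 + Pi.single (inl c) 1))) = 0 := by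
  fin_cases c
  exacts [Q3_0, Q3_1, Q3_2]

end

end Vale.Agent.P273.D14.FS.Gz
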