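import Vale.Agent.P273.D14.H66.GzNum
import Vale.Agent.P273.D14.H129.GzLoc

/-!
Sums over the subsets of the half-edges at a vertex.
-/

namespace Vale.Agent.P273.D14.FS.Gz

open Sum MvPolynomial Finset
open scoped Nat
noncomputable section

variable {H : Type} [DecidableEq H]

/-- The number of half-edges in `S` with a given state. -/
def cf (l : H → St) (S : Finset H) : St → ℕ := ∑ y ∈ S, Pi.single (l y) 1

theorem cf_insert (l : H → St) {a : H} {S : Finset H} (h : a ∉ S) :
    cf l (insert a S) = cf l S + Pi.single (l a) 1 := by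
  rw [cf, sum_insert h, add_comm, cf]

omit [DecidableEq H] in
theorem cf_apply (l : H → St) (S : Finset H) (q : St) : cf l S q = #{y ∈ S | l y = q} := by
  rw [cf, Finset.sum_apply, card_filter]
  exact sum_congr rfl fun y _ => by simp [Pi.single_apply, eq_comm]

/-- A sum over the ordered partitions of a set of half-edges into two parts. -/
def Sm (l : H → St) (F : Finset H) (K : (St → ℕ) → (St → ℕ) → R) : R :=
  ∑ S ∈ F.powerset, K (cf l S) (cf l (F \ S))

theorem Sm_empty (l : H → St) (K) : Sm l ∅ K = K 0 0 := by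
  simp [Sm, cf]

theorem Sm_insert (l : H → St) {a : H} {F : Finset H} (h : a ∉ F) (K) :
    Sm l (insert a F) K =
      Sm l F (fun m n => K (m + Pi.single (l a) 1) n + K m (n + Pi.single (l a) 1)) := by
  rw [Sm, sum_powerset_insert h, Sm, ← sum_add_distrib]
  refine sum_congr rfl fun S hS => ?_
  have hS' : S ⊆ F := mem_powerset.1 hS
  have ha : a ∉ S := fun h' => h (hS' h')
  rw [cf_insert l ha, insert_sdiff_of_notMem F ha, cf_insert l (by simp [h]),
    insert_sdiff_insert, sdiff_insert_of_notMem h, add_comm]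

theorem Sm_leaves (l : H → St) {F : Finset H} {K : (St → ℕ) → (St → ℕ) → R}
    (hK : ∀ m n, K (m + bg) n + K m (n + bg) = δ (K m n)) (B : Finset H)
    (hB : ∀ b ∈ B, l b = inr false ∧ b ∉ F) : Sm l (B ∪ F) K = δ^[#B] (Sm l F K) := by
  induction B using Finset.induction_on with
  | empty => simp
  | insert b B hb ih =>
    rw [insert_union, Sm_insert l (by simp [hb, (hB b (by simp)).2]), (hB b (by simp)).1,
      card_insert_of_notMem hb, Function.iterate_succ_apply',
      ← ih fun b' hb' => hB b' (mem_insert_of_mem hb')]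
    simp only [hK, Sm, map_sum]

theorem Sm_add (l : H → St) (F : Finset H) (K K') :
    Sm l F (fun m n => K m n + K' m n) = Sm l F K + Sm l F K' := by
  simp [Sm, sum_add_distrib]

theorem GG_symm (P Q : St) (m n : St → ℕ) : GG P Q m n = GG Q P m n := by
  simp only [GG]
  rw [add_right_comm m, add_right_comm n]
  ring

variable [Fintype H]

theorem sum_GG (l : H → St) {p q : H} (hpq : p ≠ q) :
    ∑ S : Finset H, (if p ∈ S then
      (if q ∈ S then - DD (cf l S) (cf l Sᶜ) else LL (cf l S) (cf l Sᶜ) + 2 * DD (cf l S) (cf l Sᶜ))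
      else (if q ∈ S then LL (cf l S) (cf l Sᶜ) + 2 * DD (cf l S) (cf l Sᶜ)
        else - LL (cf l S) (cf l Sᶜ) - DD (cf l S) (cf l Sᶜ))) =
      Sm l ({p, q}ᶜ : Finset H) (GG (l p) (l q)) := by
  have hu : (univ : Finset H) = insert p (insert q ({p, q}ᶜ : Finset H)) := by
    ext x
    simp
    tauto
  have h1 : p ∉ insert q ({p, q}ᶜ : Finset H) := by simp [hpq]
  have h2 : q ∉ ({p, q}ᶜ : Finset H) := by simp
  rw [← powerset_univ, hu, sum_powerset_insert h1, sum_powerset_insert h2, sum_powerset_insert h2,
    ← sum_add_distrib, ← sum_add_distrib, ← sum_add_distrib, Sm]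
  refine sum_congr rfl fun S hS => ?_
  have hp : p ∉ S := fun h => by simpa using mem_powerset.1 hS h
  have hq : q ∉ S := fun h => by simpa using mem_powerset.1 hS h
  have hp' : p ∉ ({p, q}ᶜ : Finset H) \ S := by simp
  have hq' : q ∉ ({p, q}ᶜ : Finset H) \ S := by simp
  have c1 : Sᶜ = insert p (insert q (({p, q}ᶜ : Finset H) \ S)) := by
    ext x
    simp only [mem_compl, mem_insert, mem_sdiff, mem_singleton]
    by_cases h1 : x = p <;> by_cases h2 : x = q <;> simp [h1, h2, hp, hq]
  have c2 : (insert q S)ᶜ = insert p (({p, q}ᶜ : Finset H) \ S) := by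
    ext x
    simp only [mem_compl, mem_insert, mem_sdiff, mem_singleton]
    by_cases h1 : x = p <;> by_cases h2 : x = q <;> simp_all
  have c3 : (insert p S)ᶜ = insert q (({p, q}ᶜ : Finset H) \ S) := by
    ext x
    simp only [mem_compl, mem_insert, mem_sdiff, mem_singleton]
    by_cases h1 : x = p <;> by_cases h2 : x = q <;> simp_all
  have c4 : (insert p (insert q S))ᶜ = ({p, q}ᶜ : Finset H) \ S := by
    ext x
    simp only [mem_compl, mem_insert, mem_sdiff, mem_singleton]
    by_cases h1 : x = p <;> by_cases h2 : x = q <;> simp_all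
  rw [c1, c2, c3, c4, cf_insert l (a := p) (S := insert q _) (by simp [hpq]),
    cf_insert l hq', cf_insert l hp', cf_insert l (a := p) (S := insert q S) (by simp [hpq, hp]),
    cf_insert l hq, cf_insert l hp]
  simp only [mem_insert, hp, hq, hpq, hpq.symm, or_false, or_true, if_true, if_false, GG]
  rw [add_right_comm (cf l S) (Pi.single (l q) 1), add_right_comm (cf l _) (Pi.single (l q) 1)]
  ring

theorem card_pq {p q : H} (hpq : p ≠ q) (P : H → Prop) [DecidablePred P] :
    #{y | P y} = #{y ∈ ({p, q}ᶜ : Finset H) | P y} + (if P p then 1 else 0) +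
      (if P q then 1 else 0) := by
  have hu : (univ : Finset H) = insert p (insert q ({p, q}ᶜ : Finset H)) := by
    ext x
    simp
    tauto
  simp only [card_filter]
  rw [hu, sum_insert (by simp [hpq]), sum_insert (by simp)]
  ring

theorem loc_gz (hδ : ∀ p, La (δ p) = 0) (l : H → St) {p q : H} (hpq : p ≠ q) (c : Fin 3)
    (h1 : ∀ d, #{y | l y = inl d} = if d = c then 2 else 0) (h2 : ∀ y, l y ≠ inr true) {N : ℕ}
    (hN : N + #{y | l y = inr false} + 1 = 7) :
    La (X c.castSucc ^ N * Sm l ({p, q}ᶜ : Finset H) (GG (l p) (l q))) = 0 := by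
  have hl : ∀ y, l y = inl c ∨ l y = inr false := fun y => by
    rcases hy : l y with d | b
    · left
      by_contra hd
      have := h1 d
      rw [if_neg (by simpa using hd), card_eq_zero] at this
      exact (notMem_empty y) (this ▸ (by simpa using hy))
    · cases b
      · exact Or.inr rfl
      · exact absurd hy (h2 y)
  set B : Finset H := {y ∈ ({p, q}ᶜ : Finset H) | l y = inr false} with hB
  set F : Finset H := {y ∈ ({p, q}ᶜ : Finset H) | l y = inl c} with hF
  have hu : ({p, q}ᶜ : Finset H) = B ∪ F := by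
    ext x
    simp only [hB, hF, mem_union, mem_filter, ← and_or_left]
    exact ⟨fun h => ⟨h, (hl x).symm⟩, fun h => h.1⟩
  have c1 := card_pq hpq (fun y => l y = inl c)
  have c2 := card_pq hpq (fun y => l y = inr false)
  rw [h1, if_pos rfl, ← hF] at c1
  rw [← hB] at c2
  rw [hu, Sm_leaves l (fun m n => GG_big _ _ m n) B (fun b hb => by
    have h3 := (mem_filter.1 hb).2
    exact ⟨h3, fun h4 => by simpa [h3] using (mem_filter.1 h4).2⟩), H129.la_parts hδ]
  refine mul_eq_zero_of_right _ ?_
  rcases hl p with hp | hp <;> rcases hl q with hq | hq <;> simp only [hp, hq, reduceCtorEq,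
    if_true, if_false, add_zero] at c1 c2 ⊢
  · have hF0 : F = ∅ := card_eq_zero.1 (by omega)
    rw [hF0, Sm_empty, show N + #B = 6 by omega]
    exact Q1 c
  · obtain ⟨a, ha⟩ := card_eq_one.1 (show #F = 1 by omega)
    have hac : l a = inl c := (mem_filter.1 (ha ▸ mem_singleton_self a : a ∈ F)).2
    rw [ha, show ({a} : Finset H) = insert a ∅ from rfl, Sm_insert l (notMem_empty a), Sm_empty,
      hac, show N + #B = 5 by omega, zero_add]
    exact Q2 c
  · obtain ⟨a, ha⟩ := card_eq_one.1 (show #F = 1 by omega)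
    have hac : l a = inl c := (mem_filter.1 (ha ▸ mem_singleton_self a : a ∈ F)).2
    rw [ha, show ({a} : Finset H) = insert a ∅ from rfl, Sm_insert l (notMem_empty a), Sm_empty,
      hac, show N + #B = 5 by omega, zero_add, GG_symm (inr false), GG_symm (inr false)]
    exact Q2 c
  · obtain ⟨a, b, hab, ha⟩ := card_eq_two.1 (show #F = 2 by omega)
    have hac : l a = inl c := (mem_filter.1 (ha ▸ (by simp) : a ∈ F)).2
    have hbc : l b = inl c := (mem_filter.1 (ha ▸ (by simp) : b ∈ F)).2
    rw [ha, Sm_insert l (by simpa using hab), show ({b} : Finset H) = insert b ∅ from rfl,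
      Sm_insert l (notMem_empty b), Sm_empty, hac, hbc, show N + #B = 4 by omega, zero_add]
    convert Q3 c using 3
    ring

end

end Vale.Agent.P273.D14.FS.Gz
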